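import Vale.Agent.P209.H564.ConjMain

namespace Vale.Agent.Results.P209.SiegelYaoConjectureA

open Vale.Agent.P209

/-- **The Siegel-Yao Conjecture A**: for all `n ≥ 3`, `k ≥ 1` and all positive `R`, `r_1, …, r_k`,
the closed balls of capacities `r_i` in `ℂⁿ` embed symplectically, with disjoint images, in the
open ball of capacity `R` if and only if `∑ r_i ^ n < R ^ n` and `r_i + r_j < R` for `i < j`. -/
theorem result : ∀ n k : ℕ, 3 ≤ n → 1 ≤ k → ∀ (R : ℝ) (r : Fin k → ℝ), 0 < R →
    (∀ i, 0 < r i) →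
    (Packs (openBall n R) r ↔ ∑ i, r i ^ n < R ^ n ∧ ∀ i j, i < j → r i + r j < R) :=
  H564.conjecture_A

end Vale.Agent.Results.P209.SiegelYaoConjectureA
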